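import Vale.Agent.P050.Bdl.B1

/-!
P050: all partial results of the team in one statement.

1. Kernels: every bipartite `H`, sup-norm radius `p / (24 Δ)`.
2. All graphs `G`: averaged Sidorenko inequality over random subgraphs of `H`.
3. Every bipartite `H` against all targets with a monotone system of reflections, in particular
   generalised Kneser graphs, Hamming-type graphs and circular graphs, in the edge by edge form.
-/

open MeasureTheory

namespace Vale.Agent.Results.P050.Combined

open Vale.Agent.P050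

/-- The homomorphism density `t(H, W) = ∫ ∏_{uv ∈ E(H)} W(x_u, x_v) dx` of the graph `H` in the
symmetric kernel `W` on the measure space `(Ω, μ)`; the integral is over `Ω ^ V(H)`. -/
noncomputable def kernelDensity {V Ω : Type} [Fintype V] [DecidableEq V] [MeasurableSpace Ω]
    (μ : Measure Ω) (H : SimpleGraph V) [DecidableRel H.Adj]
    (W : Ω → Ω → ℝ) (hW : ∀ s t, W s t = W t s) : ℝ :=
  ∫ x : V → Ω, ∏ e ∈ H.edgeFinset,
    Sym2.lift ⟨fun u v => W (x u) (x v), fun u v => hW (x u) (x v)⟩ e
    ∂(Measure.pi fun _ : V => μ)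

/-- `t(F, G)` for the graph with vertex set `V` and edge set `F`: the number of maps from `V` to
the vertices of `G` sending every edge in `F` to an edge of `G`, divided by `|V(G)| ^ |V|`. -/
noncomputable def subgraphDensity {V X : Type} [Fintype V] [DecidableEq V] [Fintype X]
    (F : Finset (Sym2 V)) (G : SimpleGraph X) [DecidableRel G.Adj] : ℝ :=
  ((Finset.univ.filter (fun φ : V → X => ∀ e ∈ F, e.map φ ∈ G.edgeSet)).card : ℝ) /
    (Fintype.card X : ℝ) ^ Fintype.card V

theorem result :
    (∀ (V Ω : Type) [Fintype V] [DecidableEq V] [MeasurableSpace Ω]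
      (H : SimpleGraph V) [DecidableRel H.Adj] (μ : Measure Ω) [IsProbabilityMeasure μ]
      (W : Ω → Ω → ℝ) (hW : ∀ s t, W s t = W t s) (p : ℝ),
      H.IsBipartite → Measurable (Function.uncurry W) → 0 < p →
      ∫ s, ∫ t, W s t ∂μ ∂μ = p →
      (∀ᵐ z ∂(μ.prod μ), |W z.1 z.2 - p| ≤ p / (24 * H.maxDegree)) →
      p ^ H.edgeFinset.card ≤ kernelDensity μ H W hW) ∧
    (∀ (V X : Type) [Fintype V] [DecidableEq V] [Fintype X] [Nonempty X]
      (H : SimpleGraph V) [DecidableRel H.Adj] (G : SimpleGraph X) [DecidableRel G.Adj] (θ : ℝ),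
      H.IsBipartite → 0 ≤ θ → θ * (24 * H.maxDegree + 1) ≤ 1 →
      (1 - θ + θ * (2 * G.edgeFinset.card / (Fintype.card X : ℝ) ^ 2)) ^ H.edgeFinset.card ≤
        ∑ F ∈ H.edgeFinset.powerset,
          θ ^ F.card * (1 - θ) ^ (H.edgeFinset.card - F.card) * subgraphDensity F G) ∧
    (∀ (U ι : Type) [Finite U] [Nonempty U] (G : SimpleGraph U) (s : ι → U → U)
      (P Q : ι → Set U), MonotoneReflections G s P Q →
        EdgewiseSidorenkoAgainst G ∧ SidorenkoAgainst G) ∧
    (∀ n k t : ℕ, k ≤ n →
      EdgewiseSidorenkoAgainst (kneserGraph n k t) ∧ SidorenkoAgainst (kneserGraph n k t)) ∧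
    (∀ (n q : ℕ) (S : Set (Finset (Fin n))), 0 < q → IsUpperSet S →
      EdgewiseSidorenkoAgainst (hammingGraph n q S) ∧ SidorenkoAgainst (hammingGraph n q S)) ∧
    (∀ n r : ℕ, 0 < n →
      EdgewiseSidorenkoAgainst (circularGraph n r) ∧ SidorenkoAgainst (circularGraph n r)) := by
  refine ⟨?_, ?_, ?_, ?_, ?_, ?_⟩
  · intro V Ω _ _ _ H _ μ _ W hW p hH hmeas hp hint hclose
    exact Vale.Agent.P050.local_sidorenko μ H hH W hW hmeas hp hint hclose
  · intro V X _ _ _ _ H _ G _ θ hH hθ0 hθ
    exact Vale.Agent.P050.average_sidorenko H hH G θ hθ0 hθ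
  · intro U ι _ _ G s P Q R
    have h := edgewise_of_monotoneReflections G s P Q R
    exact ⟨h, sidorenko_of_edgewise h⟩
  · intro n k t hk
    have h := edgewise_kneser n k t hk
    have hne : Nonempty {s : Finset (Fin n) // s.card = k} := by
      obtain ⟨s, hs⟩ := Finset.exists_subset_card_eq (s := (Finset.univ : Finset (Fin n)))
        (n := k) (by simpa using hk)
      exact ⟨⟨s, hs.2⟩⟩
    exact ⟨h, sidorenko_of_edgewise h⟩
  · intro n q S hq hS
    have h := edgewise_hamming n q hq S hS
    have hne : Nonempty (Fin n → Fin q) := ⟨fun _ => ⟨0, hq⟩⟩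
    exact ⟨h, sidorenko_of_edgewise h⟩
  · intro n r hn
    have h := edgewise_circular n r hn
    have hne : Nonempty (Fin n) := ⟨⟨0, hn⟩⟩
    exact ⟨h, sidorenko_of_edgewise h⟩

end Vale.Agent.Results.P050.Combined
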